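import Mathlib

/-!
Two one-variable logarithm inequalities used for the truncated-simplex inequality `(W_n)`.
-/

namespace Vale.Agent.Helper14.WnAnalysis

open Real

/-- `-log x ≤ (1 - x^2)/(2x)` on `(0,1]` (this is `Z ≤ sinh Z`). -/
lemma neg_log_le_one {x : ℝ} (hx0 : 0 < x) (hx1 : x ≤ 1) :
    -Real.log x ≤ (1 - x ^ 2) / (2 * x) := by
  have hZ : 0 ≤ -Real.log x := by
    have := Real.log_nonpos hx0.le hx1
    linarith
  have h := Real.self_le_sinh_iff.mpr hZ
  rw [Real.sinh_eq, neg_neg, Real.exp_neg, Real.exp_log hx0] at h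
  have : (x⁻¹ - x) / 2 = (1 - x ^ 2) / (2 * x) := by
    field_simp
  linarith

/-- `g(Z) = sinh Z (cosh Z + 2) - Z (1 + 2 cosh Z) ≥ 0` for `Z ≥ 0`. -/
lemma hyp_aux {Z : ℝ} (hZ : 0 ≤ Z) :
    0 ≤ Real.sinh Z * (Real.cosh Z + 2) - Z * (1 + 2 * Real.cosh Z) := by
  have hmono : MonotoneOn
      (fun Z : ℝ => Real.sinh Z * (Real.cosh Z + 2) - Z * (1 + 2 * Real.cosh Z))
      (Set.Ici 0) := by
    have hd : ∀ y : ℝ, HasDerivAt
        (fun Z : ℝ => Real.sinh Z * (Real.cosh Z + 2) - Z * (1 + 2 * Real.cosh Z))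
        (Real.cosh y * (Real.cosh y + 2) + Real.sinh y * Real.sinh y -
          (1 * (1 + 2 * Real.cosh y) + y * (2 * Real.sinh y))) y := by
      intro y
      have h1 := (Real.hasDerivAt_sinh y).mul ((Real.hasDerivAt_cosh y).add_const 2)
      have h2 := (hasDerivAt_id y).mul (((Real.hasDerivAt_cosh y).const_mul 2).const_add 1)
      exact h1.sub h2
    apply monotoneOn_of_deriv_nonneg (convex_Ici 0)
    · exact fun y _ => (hd y).continuousAt.continuousWithinAt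
    · exact fun y _ => (hd y).differentiableAt.differentiableWithinAt
    · intro y hy
      rw [interior_Ici] at hy
      have hy0 : (0:ℝ) ≤ y := le_of_lt hy
      rw [(hd y).deriv]
      have hs : 0 ≤ Real.sinh y := Real.sinh_nonneg_iff.mpr hy0
      have hs2 : y ≤ Real.sinh y := Real.self_le_sinh_iff.mpr hy0
      have hc := Real.cosh_sq y
      nlinarith [mul_nonneg hs (sub_nonneg.mpr hs2)]
  have h0 := hmono (Set.mem_Ici.mpr le_rfl) (Set.mem_Ici.mpr hZ) hZ
  simpa using h0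

/-- `-log x ≤ (1 - x^2)(1 + 4x + x^2)/(4x(1 + x + x^2))` on `(0,1]`. -/
lemma neg_log_le_three {x : ℝ} (hx0 : 0 < x) (hx1 : x ≤ 1) :
    -Real.log x ≤ (1 - x ^ 2) * (1 + 4 * x + x ^ 2) / (4 * x * (1 + x + x ^ 2)) := by
  have hZ : 0 ≤ -Real.log x := by
    have := Real.log_nonpos hx0.le hx1
    linarith
  have h := hyp_aux hZ
  rw [Real.sinh_eq, Real.cosh_eq, neg_neg, Real.exp_neg, Real.exp_log hx0] at h
  have hpos : 0 < 4 * x * (1 + x + x ^ 2) := by positivity
  rw [le_div_iff₀ hpos]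
  have e1 : (x⁻¹ - x) / 2 * ((x⁻¹ + x) / 2 + 2) =
      (1 - x ^ 2) * (1 + 4 * x + x ^ 2) / (4 * x ^ 2) := by
    field_simp
    ring
  have e2 : (1 + 2 * ((x⁻¹ + x) / 2)) = (1 + x + x ^ 2) / x := by
    field_simp
    ring
  rw [e1, e2] at h
  have h3 : -Real.log x * ((1 + x + x ^ 2) / x) ≤
      (1 - x ^ 2) * (1 + 4 * x + x ^ 2) / (4 * x ^ 2) := by linarith
  have h4 : -Real.log x * ((1 + x + x ^ 2) / x) * (4 * x ^ 2) ≤
      (1 - x ^ 2) * (1 + 4 * x + x ^ 2) / (4 * x ^ 2) * (4 * x ^ 2) :=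
    mul_le_mul_of_nonneg_right h3 (by positivity)
  have e3 : -Real.log x * ((1 + x + x ^ 2) / x) * (4 * x ^ 2) =
      -Real.log x * (4 * x * (1 + x + x ^ 2)) := by
    field_simp
  have e4 : (1 - x ^ 2) * (1 + 4 * x + x ^ 2) / (4 * x ^ 2) * (4 * x ^ 2) =
      (1 - x ^ 2) * (1 + 4 * x + x ^ 2) := by
    field_simp
  rw [e3, e4] at h4
  exact h4

/-- Generic monotonicity of `ρ(x)/(-log x)` on `(0,1)` in two-point form. -/
lemma quot_mono (ρ ρ' : ℝ → ℝ)
    (hd : ∀ x ∈ Set.Ioo (0:ℝ) 1, HasDerivAt ρ (ρ' x) x)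
    (hc : ∀ x ∈ Set.Ioo (0:ℝ) 1, 0 ≤ ρ x + x * ρ' x * (-Real.log x))
    {c x : ℝ} (hc0 : 0 < c) (hcx : c ≤ x) (hx1 : x < 1) :
    ρ c * (-Real.log x) ≤ ρ x * (-Real.log c) := by
  have hlogpos : ∀ y ∈ Set.Ioo (0:ℝ) 1, 0 < -Real.log y := by
    intro y hy
    have := Real.log_neg hy.1 hy.2
    linarith
  have hD : ∀ y ∈ Set.Ioo (0:ℝ) 1, HasDerivAt (fun y => ρ y / (-Real.log y))
      ((ρ' y * (-Real.log y) - ρ y * (-(y⁻¹))) / (-Real.log y) ^ 2) y := by
    intro y hy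
    exact (hd y hy).div (Real.hasDerivAt_log hy.1.ne').neg (hlogpos y hy).ne'
  have hmono : MonotoneOn (fun y => ρ y / (-Real.log y)) (Set.Ioo 0 1) := by
    apply monotoneOn_of_deriv_nonneg (convex_Ioo 0 1)
    · exact fun y hy => (hD y hy).continuousAt.continuousWithinAt
    · intro y hy
      rw [interior_Ioo] at hy
      exact (hD y hy).differentiableAt.differentiableWithinAt
    · intro y hy
      rw [interior_Ioo] at hy
      rw [(hD y hy).deriv]
      apply div_nonneg _ (sq_nonneg _)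
      have h1 := hc y hy
      have hy0 : 0 < y := hy.1
      have e : ρ' y * (-Real.log y) - ρ y * (-(y⁻¹)) =
          (ρ y + y * ρ' y * (-Real.log y)) / y := by
        field_simp
        ring
      rw [e]
      exact div_nonneg h1 hy0.le
  have hcmem : c ∈ Set.Ioo (0:ℝ) 1 := ⟨hc0, lt_of_le_of_lt hcx hx1⟩
  have hxmem : x ∈ Set.Ioo (0:ℝ) 1 := ⟨lt_of_lt_of_le hc0 hcx, hx1⟩
  have h := hmono hcmem hxmem hcx
  have hLc := hlogpos c hcmem
  have hLx := hlogpos x hxmem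
  simp only at h
  rw [div_le_div_iff₀ hLc hLx] at h
  linarith

/-- (TL1) chord bound for `(1-x)/(1+x)`. -/
lemma tl1 {c x : ℝ} (hc0 : 0 < c) (hcx : c ≤ x) (hx1 : x < 1) :
    (1 - c) / (1 + c) * (-Real.log x) ≤ (1 - x) / (1 + x) * (-Real.log c) := by
  refine quot_mono (fun y => (1 - y) / (1 + y)) (fun y => -2 / (1 + y) ^ 2) ?_ ?_ hc0 hcx hx1
  · intro y hy
    have hy0 : 0 < y := hy.1
    have h1 : HasDerivAt (fun y : ℝ => 1 - y) (-1) y := by
      simpa using (hasDerivAt_id y).const_sub 1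
    have h2 : HasDerivAt (fun y : ℝ => 1 + y) 1 y := by
      simpa using (hasDerivAt_id y).const_add 1
    have h3 := h1.div h2 (by positivity : (1 + y) ≠ 0)
    have h4 : HasDerivAt (fun y : ℝ => (1 - y) / (1 + y))
        ((-1 * (1 + y) - (1 - y) * 1) / (1 + y) ^ 2) y := h3
    exact h4.congr_deriv (by ring)
  · intro y hy
    have hy0 : 0 < y := hy.1
    have hy1 : y ≤ 1 := hy.2.le
    have hL := neg_log_le_one hy0 hy1
    have hL0 : 0 ≤ -Real.log y := by
      have := Real.log_nonpos hy0.le hy1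
      linarith
    have e : (1 - y) / (1 + y) + y * (-2 / (1 + y) ^ 2) * (-Real.log y) =
        (2 * y / (1 + y) ^ 2) * ((1 - y ^ 2) / (2 * y) - (-Real.log y)) := by
      field_simp
      ring
    rw [e]
    apply mul_nonneg (by positivity)
    linarith

/-- (TL2) the sharp two-point logarithm inequality. -/
lemma tl2 {v c : ℝ} (hv0 : 0 < v) (hvc : v ≤ c) (hc1 : c < 1) :
    (-Real.log c) * (1 + 4 * c + c ^ 2) * (1 - v ^ 2) ≤
      (-Real.log v) * (1 + 4 * v + v ^ 2) * (1 - c ^ 2) := by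
  have key := quot_mono (fun y => (1 - y ^ 2) / (1 + 4 * y + y ^ 2))
    (fun y => -4 * (1 + y + y ^ 2) / (1 + 4 * y + y ^ 2) ^ 2) ?_ ?_ hv0 hvc hc1
  · have hc0 : 0 < c := lt_of_lt_of_le hv0 hvc
    have hpv : 0 < 1 + 4 * v + v ^ 2 := by positivity
    have hpc : 0 < 1 + 4 * c + c ^ 2 := by positivity
    have h := mul_le_mul_of_nonneg_right key (mul_pos hpv hpc).le
    have e1 : (1 - v ^ 2) / (1 + 4 * v + v ^ 2) * (-Real.log c) *
        ((1 + 4 * v + v ^ 2) * (1 + 4 * c + c ^ 2)) =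
        (-Real.log c) * (1 + 4 * c + c ^ 2) * (1 - v ^ 2) := by
      field_simp
    have e2 : (1 - c ^ 2) / (1 + 4 * c + c ^ 2) * (-Real.log v) *
        ((1 + 4 * v + v ^ 2) * (1 + 4 * c + c ^ 2)) =
        (-Real.log v) * (1 + 4 * v + v ^ 2) * (1 - c ^ 2) := by
      field_simp
    rw [e1, e2] at h
    exact h
  · intro y hy
    have hy0 : 0 < y := hy.1
    have h1 : HasDerivAt (fun y : ℝ => 1 - y ^ 2) (-(2 * y)) y := by
      have := (hasDerivAt_pow 2 y).const_sub 1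
      simpa using this
    have h2 : HasDerivAt (fun y : ℝ => 1 + 4 * y + y ^ 2) (4 + 2 * y) y := by
      have ha : HasDerivAt (fun y : ℝ => 1 + 4 * y) 4 y := by
        have := ((hasDerivAt_id y).const_mul 4).const_add 1
        simpa using this
      have hb : HasDerivAt (fun y : ℝ => y ^ 2) (2 * y) y := by
        have := hasDerivAt_pow 2 y
        simpa using this
      exact ha.add hb
    have h3 := h1.div h2 (by positivity : (1 + 4 * y + y ^ 2) ≠ 0)
    have h4 : HasDerivAt (fun y : ℝ => (1 - y ^ 2) / (1 + 4 * y + y ^ 2))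
        ((-(2 * y) * (1 + 4 * y + y ^ 2) - (1 - y ^ 2) * (4 + 2 * y)) /
          (1 + 4 * y + y ^ 2) ^ 2) y := h3
    exact h4.congr_deriv (by ring)
  · intro y hy
    have hy0 : 0 < y := hy.1
    have hy1 : y ≤ 1 := hy.2.le
    have hL := neg_log_le_three hy0 hy1
    have e : (1 - y ^ 2) / (1 + 4 * y + y ^ 2) +
        y * (-4 * (1 + y + y ^ 2) / (1 + 4 * y + y ^ 2) ^ 2) * (-Real.log y) =
        (4 * y * (1 + y + y ^ 2) / (1 + 4 * y + y ^ 2) ^ 2) *
          ((1 - y ^ 2) * (1 + 4 * y + y ^ 2) / (4 * y * (1 + y + y ^ 2)) - (-Real.log y)) := by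
      field_simp
      ring
    rw [e]
    apply mul_nonneg (by positivity)
    linarith

end Vale.Agent.Helper14.WnAnalysis
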