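import Vale.Agent.Helper14.WnAnalysis

/-!
The inequality `(W_n)` for vertex-truncated simplices, in factorised form, for all `n`.

For atoms `x_i ∈ (0,1]` with `q^2 = ∏ x_i < 1`:
`Φ₊ Φ₋ ≤ (1 - q^2)^(n+3)`, where
`Φ₊ = ∏ (1 + q x_i) * ((1 - q) - ∑ q (1 - x_i)/(1 + q x_i))`,
`Φ₋ = ∏ (1 - q x_i) * ((1 + q) + ∑ q (1 - x_i)/(1 - q x_i))`.
-/

namespace Vale.Agent.Helper14.WnCore

open Real Vale.Agent.Helper14.WnAnalysis

noncomputable def al (q x : ℝ) : ℝ := q * (1 - x) / (1 + q * x)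
noncomputable def be (q x : ℝ) : ℝ := q * (1 - x) / (1 - q * x)

lemma al_nonneg {q x : ℝ} (hq0 : 0 < q) (hx0 : 0 < x) (hx1 : x ≤ 1) : 0 ≤ al q x := by
  unfold al
  have : 0 ≤ 1 - x := by linarith
  positivity

lemma be_nonneg {q x : ℝ} (hq0 : 0 < q) (hq1 : q < 1) (hx0 : 0 < x) (hx1 : x ≤ 1) :
    0 ≤ be q x := by
  unfold be
  have h1 : 0 ≤ 1 - x := by linarith
  have h2 : 0 < 1 - q * x := by nlinarith
  positivity

lemma al_chord {q c x : ℝ} (hq0 : 0 < q) (hq1 : q < 1) (hc0 : 0 < c) (hcx : c ≤ x)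
    (hx1 : x ≤ 1) : al q c * (-Real.log x) ≤ al q x * (-Real.log c) := by
  rcases hx1.lt_or_eq with hx | rfl
  · have h := tl1 hc0 hcx hx
    have hx0 : 0 < x := lt_of_lt_of_le hc0 hcx
    have e1 : al q c * (-Real.log x) =
        q * ((1 + c) / (1 + q * c)) * ((1 - c) / (1 + c) * (-Real.log x)) := by
      unfold al; field_simp
    have e2 : al q x * (-Real.log c) =
        q * ((1 + x) / (1 + q * x)) * ((1 - x) / (1 + x) * (-Real.log c)) := by
      unfold al; field_simp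
    have hf : (1 + c) / (1 + q * c) ≤ (1 + x) / (1 + q * x) := by
      rw [div_le_div_iff₀ (by positivity) (by positivity)]
      nlinarith [mul_nonneg (sub_nonneg.mpr hcx) (sub_nonneg.mpr hq1.le)]
    have hB : 0 ≤ (1 - x) / (1 + x) * (-Real.log c) := by
      have h1 : 0 ≤ 1 - x := by linarith
      have h2 : 0 ≤ -Real.log c := by
        have := Real.log_nonpos hc0.le (le_trans hcx hx1)
        linarith
      positivity
    rw [e1, e2]
    calc q * ((1 + c) / (1 + q * c)) * ((1 - c) / (1 + c) * (-Real.log x))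
        ≤ q * ((1 + c) / (1 + q * c)) * ((1 - x) / (1 + x) * (-Real.log c)) :=
          mul_le_mul_of_nonneg_left h (by positivity)
      _ ≤ q * ((1 + x) / (1 + q * x)) * ((1 - x) / (1 + x) * (-Real.log c)) :=
          mul_le_mul_of_nonneg_right (mul_le_mul_of_nonneg_left hf hq0.le) hB
  · simp [al]

lemma be_chord {q c x : ℝ} (hq0 : 0 < q) (hq1 : q < 1) (hc0 : 0 < c) (hcx : c ≤ x)
    (hx1 : x ≤ 1) : be q c * (-Real.log x) ≤ be q x * (-Real.log c) := by
  rcases hx1.lt_or_eq with hx | rfl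
  · have h := tl1 hc0 hcx hx
    have hx0 : 0 < x := lt_of_lt_of_le hc0 hcx
    have hdc : 0 < 1 - q * c := by nlinarith
    have hdx : 0 < 1 - q * x := by nlinarith
    have e1 : be q c * (-Real.log x) =
        q * ((1 + c) / (1 - q * c)) * ((1 - c) / (1 + c) * (-Real.log x)) := by
      unfold be; field_simp
    have e2 : be q x * (-Real.log c) =
        q * ((1 + x) / (1 - q * x)) * ((1 - x) / (1 + x) * (-Real.log c)) := by
      unfold be; field_simp
    have hf : (1 + c) / (1 - q * c) ≤ (1 + x) / (1 - q * x) := by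
      rw [div_le_div_iff₀ hdc hdx]
      nlinarith [mul_nonneg (sub_nonneg.mpr hcx) (by linarith : (0:ℝ) ≤ 1 + q)]
    have hB : 0 ≤ (1 - x) / (1 + x) * (-Real.log c) := by
      have h1 : 0 ≤ 1 - x := by linarith
      have h2 : 0 ≤ -Real.log c := by
        have := Real.log_nonpos hc0.le (le_trans hcx hx1)
        linarith
      positivity
    have hfc : 0 ≤ q * ((1 + c) / (1 - q * c)) := by positivity
    rw [e1, e2]
    calc q * ((1 + c) / (1 - q * c)) * ((1 - c) / (1 + c) * (-Real.log x))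
        ≤ q * ((1 + c) / (1 - q * c)) * ((1 - x) / (1 + x) * (-Real.log c)) :=
          mul_le_mul_of_nonneg_left h hfc
      _ ≤ q * ((1 + x) / (1 - q * x)) * ((1 - x) / (1 + x) * (-Real.log c)) :=
          mul_le_mul_of_nonneg_right (mul_le_mul_of_nonneg_left hf hq0.le) hB
  · simp [be]

/-- Chord bounds summed over a background multiset. -/
lemma chord_sum {q c : ℝ} (hq0 : 0 < q) (hq1 : q < 1) (hc0 : 0 < c) (o : Multiset ℝ)
    (ho : ∀ z ∈ o, c ≤ z ∧ z ≤ 1) :
    0 < o.prod ∧ o.prod ≤ 1 ∧ (c = 1 → o.prod = 1) ∧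
    al q c * (-Real.log o.prod) ≤ (o.map (al q)).sum * (-Real.log c) ∧
    be q c * (-Real.log o.prod) ≤ (o.map (be q)).sum * (-Real.log c) := by
  induction o using Multiset.induction_on with
  | empty => simp
  | cons z o ih =>
    have hz := ho z (Multiset.mem_cons_self z o)
    obtain ⟨hP, hP1, hPc, ha, hb⟩ := ih (fun w hw => ho w (Multiset.mem_cons_of_mem hw))
    have hz0 : 0 < z := lt_of_lt_of_le hc0 hz.1
    rw [Multiset.prod_cons, Multiset.map_cons, Multiset.map_cons, Multiset.sum_cons,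
      Multiset.sum_cons, Real.log_mul hz0.ne' hP.ne']
    refine ⟨mul_pos hz0 hP, ?_, ?_, ?_, ?_⟩
    · calc z * o.prod ≤ 1 * 1 := mul_le_mul hz.2 hP1 hP.le zero_le_one
        _ = 1 := one_mul 1
    · intro hc
      have : z = 1 := le_antisymm hz.2 (hc ▸ hz.1)
      rw [this, hPc hc, one_mul]
    · have h1 := al_chord hq0 hq1 hc0 hz.1 hz.2
      have e : al q c * (-(Real.log z + Real.log o.prod)) =
          al q c * (-Real.log z) + al q c * (-Real.log o.prod) := by ring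
      have e' : (al q z + (o.map (al q)).sum) * (-Real.log c) =
          al q z * (-Real.log c) + (o.map (al q)).sum * (-Real.log c) := by ring
      rw [e, e']
      linarith
    · have h1 := be_chord hq0 hq1 hc0 hz.1 hz.2
      have e : be q c * (-(Real.log z + Real.log o.prod)) =
          be q c * (-Real.log z) + be q c * (-Real.log o.prod) := by ring
      have e' : (be q z + (o.map (be q)).sum) * (-Real.log c) =
          be q z * (-Real.log c) + (o.map (be q)).sum * (-Real.log c) := by ring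
      rw [e, e']
      linarith

/-- The polynomial identity `(ALG)` (with `c = s^2`, `v = q s`, `lam = t + 2`). -/
lemma alg_identity (q s t A B : ℝ) (hA : A * (1 + q * s ^ 2) = q * (1 - s ^ 2))
    (hB : B * (1 - q * s ^ 2) = q * (1 - s ^ 2)) :
    s ^ 2 * (1 + s ^ 2) * (1 - q ^ 2 * (s ^ 2) ^ 2) *
      ((1 - q) * (1 - q * s ^ 2) * ((1 + q) + (1 + t) * B) *
          ((1 - q) + A + ((1 - q) - (1 + t) * A)) -
        (1 + q) * (1 + q * s ^ 2) * ((1 - q) - (1 + t) * A) *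
          ((1 + q) - B + ((1 + q) + (1 + t) * B))) =
    2 * q * ((2 * s ^ 2 * (1 - (q * s) ^ 2) - q * s * (t + 2) * (1 - (s ^ 2) ^ 2)) ^ 2 +
      s ^ 2 * (1 - (q * s) ^ 2) *
        ((1 - (s ^ 2) ^ 2) * (1 + 4 * (q * s) + (q * s) ^ 2) * (t + 2) -
          2 * (1 + 4 * s ^ 2 + (s ^ 2) ^ 2) * (1 - (q * s) ^ 2))) := by
  have hAB : (A * (1 + q * s ^ 2)) * (B * (1 - q * s ^ 2)) = (q * (1 - s ^ 2)) ^ 2 := by
    rw [hA, hB]; ring
  linear_combination
    (s ^ 2 * (1 + s ^ 2) * (1 - q * s ^ 2) *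
      (-((1 - q) * (1 - q * s ^ 2)) * (1 + q) * t +
        2 * ((1 + q) * (1 + q * s ^ 2)) * (1 + q) * (1 + t))) * hA +
    (s ^ 2 * (1 + s ^ 2) * (1 + q * s ^ 2) *
      (2 * ((1 - q) * (1 - q * s ^ 2)) * (1 - q) * (1 + t) -
        ((1 + q) * (1 + q * s ^ 2)) * (1 - q) * t)) * hB +
    (s ^ 2 * (1 + s ^ 2) *
      (t * (1 + t) * ((1 + q) * (1 + q * s ^ 2) - (1 - q) * (1 - q * s ^ 2)))) * hAB

/-- Monotonicity of the merge condition in `(L1, L2)`. -/
lemma merge_mono {Pp Pm K1 K2 L1 L2 L1s L2s : ℝ} (hPp : 0 < Pp) (hPm : 0 < Pm)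
    (hPpm : Pm ≤ Pp) (hK1 : 0 < K1) (hK2 : 0 < K2) (hL2s : 0 < L2s)
    (h1 : L1 ≤ L1s) (h2 : L2s ≤ L2)
    (hG : 0 ≤ Pm * L2s * (K1 + L1s) - Pp * L1s * (K2 + L2s)) :
    0 ≤ Pm * L2 * (K1 + L1) - Pp * L1 * (K2 + L2) := by
  have hstep1 : 0 ≤ Pm * L2s * (K1 + L1) - Pp * L1 * (K2 + L2s) := by
    have e : Pm * L2s * (K1 + L1) - Pp * L1 * (K2 + L2s) =
        (Pm * L2s * (K1 + L1s) - Pp * L1s * (K2 + L2s)) +
          (L1s - L1) * (Pp * K2 + (Pp - Pm) * L2s) := by ring
    rw [e]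
    have : 0 ≤ (L1s - L1) * (Pp * K2 + (Pp - Pm) * L2s) := by
      apply mul_nonneg (by linarith)
      have := mul_nonneg (sub_nonneg.mpr hPpm) hL2s.le
      positivity
    linarith
  have hbr : 0 ≤ Pm * K1 - (Pp - Pm) * L1 := by
    rcases le_or_gt L1 0 with hL | hL
    · have := mul_nonneg (sub_nonneg.mpr hPpm) (neg_nonneg.mpr hL)
      have := mul_pos hPm hK1
      nlinarith
    · have e : Pm * L2s * (K1 + L1) - Pp * L1 * (K2 + L2s) =
          L2s * (Pm * K1 - (Pp - Pm) * L1) - Pp * K2 * L1 := by ring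
      rw [e] at hstep1
      have hpos : 0 < Pp * K2 * L1 := by positivity
      have h3 : 0 < L2s * (Pm * K1 - (Pp - Pm) * L1) := by linarith
      exact le_of_lt ((mul_pos_iff_of_pos_left hL2s).mp h3)
  have e2 : Pm * L2 * (K1 + L1) - Pp * L1 * (K2 + L2) =
      (Pm * L2s * (K1 + L1) - Pp * L1 * (K2 + L2s)) +
        (L2 - L2s) * (Pm * K1 - (Pp - Pm) * L1) := by ring
  rw [e2]
  have := mul_nonneg (sub_nonneg.mpr h2) hbr
  linarith

lemma le_of_sq_le {q s : ℝ} (hq : 0 < q) (hs : 0 < s) (h : q ^ 2 ≤ s ^ 2) : q ≤ s := by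
  by_contra hn
  have hn' : s < q := lt_of_not_ge hn
  nlinarith

/-- Lemma B without logarithms: `t` stands for `log(1/P)/log(1/c)`, `c = sc^2`. -/
lemma lemmaB_core {q sc t a b : ℝ} (hq0 : 0 < q) (hq1 : q < 1) (hsc0 : 0 < sc)
    (hc1 : sc ^ 2 ≤ 1) (ht0 : 0 ≤ t)
    (hat : al q (sc ^ 2) * t ≤ a) (hbt : be q (sc ^ 2) * t ≤ b)
    (htl' : (1 + 4 * sc ^ 2 + (sc ^ 2) ^ 2) * (1 - (q * sc) ^ 2) ≤
      (1 + t / 2) * (1 + 4 * (q * sc) + (q * sc) ^ 2) * (1 - (sc ^ 2) ^ 2)) :
    (1 + q) * (1 + q * sc ^ 2) * ((1 - q) - al q (sc ^ 2) - a) *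
        ((1 + q) - be q (sc ^ 2) + ((1 + q) + be q (sc ^ 2) + b)) ≤
      (1 - q) * (1 - q * sc ^ 2) * ((1 + q) + be q (sc ^ 2) + b) *
        ((1 - q) + al q (sc ^ 2) + ((1 - q) - al q (sc ^ 2) - a)) := by
  have hc0 : 0 < sc ^ 2 := by positivity
  have hq2 : q ^ 2 < 1 := by nlinarith
  have hal0 : 0 ≤ al q (sc ^ 2) := al_nonneg hq0 hc0 hc1
  have hbe0 : 0 ≤ be q (sc ^ 2) := be_nonneg hq0 hq1 hc0 hc1
  have hD1 : 0 < 1 + q * sc ^ 2 := by positivity
  have hD2 : 0 < 1 - q * sc ^ 2 := by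
    have : q * sc ^ 2 ≤ q * 1 := mul_le_mul_of_nonneg_left hc1 hq0.le
    linarith
  have hA : al q (sc ^ 2) * (1 + q * sc ^ 2) = q * (1 - sc ^ 2) := by
    unfold al; field_simp
  have hB : be q (sc ^ 2) * (1 - q * sc ^ 2) = q * (1 - sc ^ 2) := by
    unfold be; field_simp
  have hbe_le : be q (sc ^ 2) ≤ q := by
    have h1 : q * sc ^ 2 ≤ 1 * sc ^ 2 := mul_le_mul_of_nonneg_right hq1.le hc0.le
    have h2 : q * (1 - sc ^ 2) ≤ q * (1 - q * sc ^ 2) :=
      mul_le_mul_of_nonneg_left (by linarith) hq0.le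
    have : be q (sc ^ 2) * (1 - q * sc ^ 2) ≤ q * (1 - q * sc ^ 2) := by
      rw [hB]; exact h2
    exact le_of_mul_le_mul_right this hD2
  have hid := alg_identity q sc t (al q (sc ^ 2)) (be q (sc ^ 2)) hA hB
  have hG : 0 ≤ (1 - q) * (1 - q * sc ^ 2) * ((1 + q) + (1 + t) * be q (sc ^ 2)) *
        ((1 - q) + al q (sc ^ 2) + ((1 - q) - (1 + t) * al q (sc ^ 2))) -
      (1 + q) * (1 + q * sc ^ 2) * ((1 - q) - (1 + t) * al q (sc ^ 2)) *
        ((1 + q) - be q (sc ^ 2) + ((1 + q) + (1 + t) * be q (sc ^ 2))) := by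
    have h1 : (sc ^ 2) ^ 2 ≤ 1 := pow_le_one₀ hc0.le hc1
    have hqs : q ^ 2 * (sc ^ 2) ^ 2 < 1 := by
      have : q ^ 2 * (sc ^ 2) ^ 2 ≤ q ^ 2 * 1 := mul_le_mul_of_nonneg_left h1 (sq_nonneg q)
      linarith
    have hpos : 0 < sc ^ 2 * (1 + sc ^ 2) * (1 - q ^ 2 * (sc ^ 2) ^ 2) := by
      have : 0 < 1 - q ^ 2 * (sc ^ 2) ^ 2 := by linarith
      positivity
    have hv1 : 0 ≤ 1 - (q * sc) ^ 2 := by
      have e : (q * sc) ^ 2 = q ^ 2 * sc ^ 2 := by ring
      have : q ^ 2 * sc ^ 2 ≤ q ^ 2 * 1 := mul_le_mul_of_nonneg_left hc1 (sq_nonneg q)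
      rw [e]; linarith
    have hbr : 0 ≤ (1 - (sc ^ 2) ^ 2) * (1 + 4 * (q * sc) + (q * sc) ^ 2) * (t + 2) -
        2 * (1 + 4 * sc ^ 2 + (sc ^ 2) ^ 2) * (1 - (q * sc) ^ 2) := by
      have e : (1 - (sc ^ 2) ^ 2) * (1 + 4 * (q * sc) + (q * sc) ^ 2) * (t + 2) =
          2 * ((1 + t / 2) * (1 + 4 * (q * sc) + (q * sc) ^ 2) * (1 - (sc ^ 2) ^ 2)) := by ring
      rw [e]
      linarith
    have hrhs : 0 ≤ 2 * q *
        ((2 * sc ^ 2 * (1 - (q * sc) ^ 2) - q * sc * (t + 2) * (1 - (sc ^ 2) ^ 2)) ^ 2 +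
          sc ^ 2 * (1 - (q * sc) ^ 2) *
            ((1 - (sc ^ 2) ^ 2) * (1 + 4 * (q * sc) + (q * sc) ^ 2) * (t + 2) -
              2 * (1 + 4 * sc ^ 2 + (sc ^ 2) ^ 2) * (1 - (q * sc) ^ 2))) := by
      apply mul_nonneg (by positivity)
      apply add_nonneg (sq_nonneg _)
      exact mul_nonneg (mul_nonneg (sq_nonneg _) hv1) hbr
    rw [← hid] at hrhs
    exact (mul_nonneg_iff_of_pos_left hpos).mp hrhs
  have hPp : 0 < (1 + q) * (1 + q * sc ^ 2) := by positivity
  have hPm : 0 < (1 - q) * (1 - q * sc ^ 2) := mul_pos (by linarith) hD2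
  have hPpm : (1 - q) * (1 - q * sc ^ 2) ≤ (1 + q) * (1 + q * sc ^ 2) := by
    have e : (1 + q) * (1 + q * sc ^ 2) - (1 - q) * (1 - q * sc ^ 2) =
        2 * q * (1 + sc ^ 2) := by ring
    have : 0 ≤ 2 * q * (1 + sc ^ 2) := by positivity
    linarith
  have hK1 : 0 < (1 - q) + al q (sc ^ 2) := by linarith
  have hK2 : 0 < (1 + q) - be q (sc ^ 2) := by linarith
  have hL2s : 0 < (1 + q) + (1 + t) * be q (sc ^ 2) := by
    have := mul_nonneg (by linarith : (0:ℝ) ≤ 1 + t) hbe0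
    linarith
  have h1 : (1 - q) - al q (sc ^ 2) - a ≤ (1 - q) - (1 + t) * al q (sc ^ 2) := by
    have e : (1 + t) * al q (sc ^ 2) = al q (sc ^ 2) + al q (sc ^ 2) * t := by ring
    rw [e]; linarith
  have h2 : (1 + q) + (1 + t) * be q (sc ^ 2) ≤ (1 + q) + be q (sc ^ 2) + b := by
    have e : (1 + t) * be q (sc ^ 2) = be q (sc ^ 2) + be q (sc ^ 2) * t := by ring
    rw [e]; linarith
  have hfin := merge_mono hPp hPm hPpm hK1 hK2 hL2s h1 h2 hG
  linarith

/-- Lemma B: the merge condition for a configuration whose smallest atom is `c`. -/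
lemma lemmaB {q c : ℝ} (hq0 : 0 < q) (hq1 : q < 1) (hc0 : 0 < c) (hc1 : c ≤ 1)
    (o : Multiset ℝ) (ho : ∀ z ∈ o, c ≤ z ∧ z ≤ 1) (hp : q ^ 2 = c * o.prod) :
    (1 + q) * (1 + q * c) * ((1 - q) - al q c - (o.map (al q)).sum) *
        ((1 + q) - be q c + ((1 + q) + be q c + (o.map (be q)).sum)) ≤
      (1 - q) * (1 - q * c) * ((1 + q) + be q c + (o.map (be q)).sum) *
        ((1 - q) + al q c + ((1 - q) - al q c - (o.map (al q)).sum)) := by
  obtain ⟨hP, hP1, hPc, ha, hb⟩ := chord_sum hq0 hq1 hc0 o ho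
  generalize (o.map (al q)).sum = a at ha ⊢
  generalize (o.map (be q)).sum = b at hb ⊢
  have hq2 : q ^ 2 < 1 := by nlinarith
  have hc1' : c < 1 := by
    rcases hc1.lt_or_eq with h | h
    · exact h
    · exfalso
      rw [h, hPc h, mul_one] at hp
      rw [hp] at hq2
      exact lt_irrefl _ hq2
  have hqc : q ^ 2 ≤ c := by
    rw [hp]
    calc c * o.prod ≤ c * 1 := mul_le_mul_of_nonneg_left hP1 hc0.le
      _ = c := mul_one c
  have hLc : 0 < -Real.log c := by
    have := Real.log_neg hc0 hc1'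
    linarith
  have hLP : 0 ≤ -Real.log o.prod := by
    have := Real.log_nonpos hP.le hP1
    linarith
  obtain ⟨t, ht⟩ : ∃ t, t = (-Real.log o.prod) / (-Real.log c) := ⟨_, rfl⟩
  have ht0 : 0 ≤ t := by rw [ht]; exact div_nonneg hLP hLc.le
  have hPt : -Real.log o.prod = t * (-Real.log c) := by
    rw [ht, div_mul_cancel₀ _ hLc.ne']
  have hat : al q c * t ≤ a := by
    have h1 : al q c * t * (-Real.log c) ≤ a * (-Real.log c) := by
      have : al q c * t * (-Real.log c) = al q c * (-Real.log o.prod) := by rw [hPt]; ring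
      rw [this]; exact ha
    exact le_of_mul_le_mul_right h1 hLc
  have hbt : be q c * t ≤ b := by
    have h1 : be q c * t * (-Real.log c) ≤ b * (-Real.log c) := by
      have : be q c * t * (-Real.log c) = be q c * (-Real.log o.prod) := by rw [hPt]; ring
      rw [this]; exact hb
    exact le_of_mul_le_mul_right h1 hLc
  have hlq : Real.log q = (Real.log c + Real.log o.prod) / 2 := by
    have h1 : Real.log (q ^ 2) = Real.log c + Real.log o.prod := by
      rw [hp, Real.log_mul hc0.ne' hP.ne']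
    have h2 : Real.log (q ^ 2) = 2 * Real.log q := by
      rw [Real.log_pow]; norm_num
    linarith
  -- substitute c = sc^2
  obtain ⟨sc, hsc0, rfl⟩ : ∃ sc : ℝ, 0 < sc ∧ c = sc ^ 2 :=
    ⟨√c, Real.sqrt_pos.mpr hc0, (Real.sq_sqrt hc0.le).symm⟩
  have hlsc : Real.log sc = Real.log (sc ^ 2) / 2 := by
    rw [Real.log_pow]; push_cast; ring
  have hqsc : q ≤ sc := le_of_sq_le hq0 hsc0 hqc
  have hv0 : 0 < q * sc := mul_pos hq0 hsc0
  have hvc : q * sc ≤ sc ^ 2 := by
    calc q * sc ≤ sc * sc := mul_le_mul_of_nonneg_right hqsc hsc0.le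
      _ = sc ^ 2 := by ring
  have htl := tl2 hv0 hvc hc1'
  have hlogv : -Real.log (q * sc) = (-Real.log (sc ^ 2)) * (1 + t / 2) := by
    have e : (-Real.log (sc ^ 2)) * (1 + t / 2) =
        -Real.log (sc ^ 2) + (t * (-Real.log (sc ^ 2))) / 2 := by ring
    rw [e, ← hPt, Real.log_mul hq0.ne' hsc0.ne', hlq, hlsc]
    ring
  have htl' : (1 + 4 * sc ^ 2 + (sc ^ 2) ^ 2) * (1 - (q * sc) ^ 2) ≤
      (1 + t / 2) * (1 + 4 * (q * sc) + (q * sc) ^ 2) * (1 - (sc ^ 2) ^ 2) := by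
    rw [hlogv] at htl
    have h' : (-Real.log (sc ^ 2)) * ((1 + 4 * sc ^ 2 + (sc ^ 2) ^ 2) * (1 - (q * sc) ^ 2)) ≤
        (-Real.log (sc ^ 2)) *
          ((1 + t / 2) * (1 + 4 * (q * sc) + (q * sc) ^ 2) * (1 - (sc ^ 2) ^ 2)) := by
      calc (-Real.log (sc ^ 2)) * ((1 + 4 * sc ^ 2 + (sc ^ 2) ^ 2) * (1 - (q * sc) ^ 2))
          = (-Real.log (sc ^ 2)) * (1 + 4 * sc ^ 2 + (sc ^ 2) ^ 2) * (1 - (q * sc) ^ 2) := by
            ring
        _ ≤ (-Real.log (sc ^ 2)) * (1 + t / 2) * (1 + 4 * (q * sc) + (q * sc) ^ 2) *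
              (1 - (sc ^ 2) ^ 2) := htl
        _ = _ := by ring
    exact le_of_mul_le_mul_left h' hLc
  exact lemmaB_core hq0 hq1 hsc0 hc1 ht0 hat hbt htl'

/-- `Φ₊` and `Φ₋` of a configuration (a multiset of atoms). -/
noncomputable def PhiP (q : ℝ) (s : Multiset ℝ) : ℝ :=
  (s.map (fun x => 1 + q * x)).prod * ((1 - q) - (s.map (al q)).sum)

noncomputable def PhiM (q : ℝ) (s : Multiset ℝ) : ℝ :=
  (s.map (fun x => 1 - q * x)).prod * ((1 + q) + (s.map (be q)).sum)

lemma merge_identity_plus (q x y a : ℝ) (h1 : 1 + q * x ≠ 0) (h2 : 1 + q * y ≠ 0)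
    (h3 : 1 + q * (x * y) ≠ 0) :
    (1 + q * x) * (1 + q * y) * ((1 - q) - (al q x + (al q y + a))) =
      (1 + q) * (1 + q * (x * y)) * ((1 - q) - al q (x * y) - a) -
        (1 - x) * (1 - y) * q * (2 * (1 - q) - a) := by
  have h3' : 1 + q * x * y ≠ 0 := by rwa [mul_assoc]
  unfold al
  field_simp
  ring

lemma merge_identity_minus (q x y b : ℝ) (h1 : 1 - q * x ≠ 0) (h2 : 1 - q * y ≠ 0)
    (h3 : 1 - q * (x * y) ≠ 0) :
    (1 - q * x) * (1 - q * y) * ((1 + q) + (be q x + (be q y + b))) =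
      (1 - q) * (1 - q * (x * y)) * ((1 + q) + be q (x * y) + b) +
        (1 - x) * (1 - y) * q * (2 * (1 + q) + b) := by
  have h3' : 1 - q * x * y ≠ 0 := by rwa [mul_assoc]
  unfold be
  field_simp
  ring

/-- The merge step in real variables. -/
lemma merge_step {q x y a b : ℝ} (hq0 : 0 < q) (hq1 : q < 1) (hx0 : 0 < x) (hx1 : x ≤ 1)
    (hy0 : 0 < y) (hy1 : y ≤ 1) (hb : 0 ≤ b)
    (hL1 : 0 ≤ (1 - q) - (al q x + (al q y + a)))
    (hB : (1 + q) * (1 + q * (x * y)) * ((1 - q) - al q (x * y) - a) *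
        ((1 + q) - be q (x * y) + ((1 + q) + be q (x * y) + b)) ≤
      (1 - q) * (1 - q * (x * y)) * ((1 + q) + be q (x * y) + b) *
        ((1 - q) + al q (x * y) + ((1 - q) - al q (x * y) - a))) :
    ((1 + q * x) * (1 + q * y) * ((1 - q) - (al q x + (al q y + a)))) *
        ((1 - q * x) * (1 - q * y) * ((1 + q) + (be q x + (be q y + b)))) ≤
      (1 - q ^ 2) * (((1 + q * (x * y)) * ((1 - q) - al q (x * y) - a)) *
        ((1 - q * (x * y)) * ((1 + q) + be q (x * y) + b))) := by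
  have hxy0 : 0 < x * y := mul_pos hx0 hy0
  have hxy1 : x * y ≤ 1 := by
    calc x * y ≤ 1 * 1 := mul_le_mul hx1 hy1 hy0.le zero_le_one
      _ = 1 := one_mul 1
  have hqx : q * x < 1 := by
    have : q * x ≤ q * 1 := mul_le_mul_of_nonneg_left hx1 hq0.le
    linarith
  have hqy : q * y < 1 := by
    have : q * y ≤ q * 1 := mul_le_mul_of_nonneg_left hy1 hq0.le
    linarith
  have hqxy : q * (x * y) < 1 := by
    have : q * (x * y) ≤ q * 1 := mul_le_mul_of_nonneg_left hxy1 hq0.le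
    linarith
  have e1 := merge_identity_plus q x y a (by positivity) (by positivity) (by positivity)
  have e2 := merge_identity_minus q x y b (by linarith) (by linarith) (by linarith)
  rw [e1, e2]
  have halx := al_nonneg hq0 hx0 hx1
  have haly := al_nonneg hq0 hy0 hy1
  have hu : 0 < 2 * (1 - q) - a := by linarith
  have hv : 0 < 2 * (1 + q) + b := by linarith
  have hd : 0 ≤ (1 - x) * (1 - y) := mul_nonneg (by linarith) (by linarith)
  obtain ⟨Ap, hAp⟩ : ∃ Ap, Ap = (1 + q) * (1 + q * (x * y)) * ((1 - q) - al q (x * y) - a) :=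
    ⟨_, rfl⟩
  obtain ⟨Am, hAm⟩ : ∃ Am, Am = (1 - q) * (1 - q * (x * y)) * ((1 + q) + be q (x * y) + b) :=
    ⟨_, rfl⟩
  have hB' : Ap * (2 * (1 + q) + b) ≤ Am * (2 * (1 - q) - a) := by
    have e3 : (1 + q) - be q (x * y) + ((1 + q) + be q (x * y) + b) = 2 * (1 + q) + b := by ring
    have e4 : (1 - q) + al q (x * y) + ((1 - q) - al q (x * y) - a) = 2 * (1 - q) - a := by ring
    rw [e3, e4, ← hAp, ← hAm] at hB
    exact hB
  rw [← hAp, ← hAm]
  have e5 : (1 - q ^ 2) * (((1 + q * (x * y)) * ((1 - q) - al q (x * y) - a)) *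
        ((1 - q * (x * y)) * ((1 + q) + be q (x * y) + b))) = Ap * Am := by
    rw [hAp, hAm]; ring
  rw [e5]
  have e6 : (Ap - (1 - x) * (1 - y) * q * (2 * (1 - q) - a)) *
      (Am + (1 - x) * (1 - y) * q * (2 * (1 + q) + b)) =
      Ap * Am + ((1 - x) * (1 - y) * q) * (Ap * (2 * (1 + q) + b) - Am * (2 * (1 - q) - a)) -
        ((1 - x) * (1 - y) * q) ^ 2 * ((2 * (1 - q) - a) * (2 * (1 + q) + b)) := by ring
  rw [e6]
  have h1 : ((1 - x) * (1 - y) * q) * (Ap * (2 * (1 + q) + b) - Am * (2 * (1 - q) - a)) ≤ 0 :=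
    mul_nonpos_of_nonneg_of_nonpos (mul_nonneg hd hq0.le) (by linarith)
  have h2 : 0 ≤ ((1 - x) * (1 - y) * q) ^ 2 * ((2 * (1 - q) - a) * (2 * (1 + q) + b)) :=
    mul_nonneg (sq_nonneg _) (mul_pos hu hv).le
  linarith

/-- **(W_n) in factorised form, for every number of atoms.** -/
theorem wn_core : ∀ (n : ℕ) (s : Multiset ℝ), Multiset.card s = n →
    (∀ x ∈ s, 0 < x ∧ x ≤ 1) → ∀ q : ℝ, 0 < q → q < 1 → q ^ 2 = s.prod →
    PhiP q s * PhiM q s ≤ (1 - q ^ 2) ^ (n + 3) := by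
  intro n
  induction n with
  | zero =>
    intro s hcard hs q hq0 hq1 hp
    rw [Multiset.card_eq_zero] at hcard
    subst hcard
    rw [Multiset.prod_zero] at hp
    exfalso
    nlinarith
  | succ n ih =>
    intro s hcard hs q hq0 hq1 hp
    have hq2 : q ^ 2 < 1 := by nlinarith
    have h1q : 0 < 1 - q ^ 2 := by linarith
    rcases Nat.eq_zero_or_pos n with hn | hn
    · subst hn
      obtain ⟨x, rfl⟩ := Multiset.card_eq_one.mp hcard
      rw [Multiset.prod_singleton] at hp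
      subst hp
      unfold PhiP PhiM
      simp only [Multiset.map_singleton, Multiset.prod_singleton, Multiset.sum_singleton]
      have h3 : 0 < 1 - q * q ^ 2 := by nlinarith
      have h4 : 0 < 1 + q * q ^ 2 := by positivity
      have hq3 : q * q ^ 2 = q ^ 3 := by ring
      have h3' : (1:ℝ) - q ^ 3 ≠ 0 := by rw [← hq3]; exact h3.ne'
      have h4' : (1:ℝ) + q ^ 3 ≠ 0 := by rw [← hq3]; exact h4.ne'
      have e : (1 + q * q ^ 2) * (1 - q - al q (q ^ 2)) *
          ((1 - q * q ^ 2) * (1 + q + be q (q ^ 2))) = (1 - q ^ 2) ^ (0 + 1 + 3) := by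
        unfold al be
        field_simp
        ring
      rw [e]
    · have hne : s ≠ 0 := by
        intro h
        rw [h] at hcard
        simp at hcard
      obtain ⟨x, hxs, hxmin⟩ := s.toFinset.exists_min_image id (by
        obtain ⟨a, ha⟩ := Multiset.exists_mem_of_ne_zero hne
        exact ⟨a, Multiset.mem_toFinset.mpr ha⟩)
      rw [Multiset.mem_toFinset] at hxs
      obtain ⟨t, rfl⟩ := Multiset.exists_cons_of_mem hxs
      have hct : Multiset.card t = n := by simpa using hcard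
      have htne : t ≠ 0 := by
        intro h
        rw [h] at hct
        simp at hct
        omega
      obtain ⟨y, hyt⟩ := Multiset.exists_mem_of_ne_zero htne
      obtain ⟨o, rfl⟩ := Multiset.exists_cons_of_mem hyt
      have hx := hs x (by simp)
      have hy := hs y (by simp)
      have ho : ∀ z ∈ o, 0 < z ∧ z ≤ 1 := fun z hz => hs z (by simp [hz])
      have hxo : ∀ z ∈ o, x ≤ z := fun z hz => hxmin z (by simp [hz])
      have hc0 : 0 < x * y := mul_pos hx.1 hy.1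
      have hcx : x * y ≤ x := by
        calc x * y ≤ x * 1 := mul_le_mul_of_nonneg_left hy.2 hx.1.le
          _ = x := mul_one x
      have hc1 : x * y ≤ 1 := le_trans hcx hx.2
      have hco : ∀ z ∈ o, x * y ≤ z ∧ z ≤ 1 :=
        fun z hz => ⟨le_trans hcx (hxo z hz), (ho z hz).2⟩
      have hp' : q ^ 2 = x * y * o.prod := by
        rw [hp, Multiset.prod_cons, Multiset.prod_cons, mul_assoc]
      have hcard' : Multiset.card ((x * y) ::ₘ o) = n := by
        simp only [Multiset.card_cons] at hct ⊢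
        exact hct
      have hs' : ∀ z ∈ (x * y) ::ₘ o, 0 < z ∧ z ≤ 1 := by
        intro z hz
        rcases Multiset.mem_cons.mp hz with rfl | hz
        · exact ⟨hc0, hc1⟩
        · exact ho z hz
      have hIH := ih ((x * y) ::ₘ o) hcard' hs' q hq0 hq1 (by
        rw [hp', Multiset.prod_cons])
      have hRp : 0 < (o.map (fun z => 1 + q * z)).prod := by
        apply Multiset.prod_pos
        intro w hw
        obtain ⟨z, hz, rfl⟩ := Multiset.mem_map.mp hw
        have := (ho z hz).1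
        positivity
      have hRm : 0 < (o.map (fun z => 1 - q * z)).prod := by
        apply Multiset.prod_pos
        intro w hw
        obtain ⟨z, hz, rfl⟩ := Multiset.mem_map.mp hw
        have h1 := ho z hz
        have : q * z ≤ q * 1 := mul_le_mul_of_nonneg_left h1.2 hq0.le
        linarith
      have hb0 : 0 ≤ (o.map (be q)).sum := by
        apply Multiset.sum_nonneg
        intro w hw
        obtain ⟨z, hz, rfl⟩ := Multiset.mem_map.mp hw
        exact be_nonneg hq0 hq1 (ho z hz).1 (ho z hz).2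
      have hLemB := lemmaB hq0 hq1 hc0 hc1 o hco hp'
      unfold PhiP PhiM at hIH ⊢
      simp only [Multiset.map_cons, Multiset.prod_cons, Multiset.sum_cons] at hIH ⊢
      have hqx : q * x < 1 := by
        have : q * x ≤ q * 1 := mul_le_mul_of_nonneg_left hx.2 hq0.le
        linarith
      have hqy : q * y < 1 := by
        have : q * y ≤ q * 1 := mul_le_mul_of_nonneg_left hy.2 hq0.le
        linarith
      rcases lt_or_ge ((1 - q) - (al q x + (al q y + (o.map (al q)).sum))) 0 with hL | hL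
      · have hbx := be_nonneg hq0 hq1 hx.1 hx.2
        have hby := be_nonneg hq0 hq1 hy.1 hy.2
        have hM : 0 ≤ (1 - q * x) * ((1 - q * y) * (o.map (fun z => 1 - q * z)).prod) *
            ((1 + q) + (be q x + (be q y + (o.map (be q)).sum))) := by
          apply mul_nonneg
          · exact mul_nonneg (by linarith) (mul_nonneg (by linarith) hRm.le)
          · linarith
        have hPn : (1 + q * x) * ((1 + q * y) * (o.map (fun z => 1 + q * z)).prod) *
            ((1 - q) - (al q x + (al q y + (o.map (al q)).sum))) ≤ 0 := by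
          apply mul_nonpos_of_nonneg_of_nonpos _ hL.le
          have h1 : 0 < 1 + q * x := by have := hx.1; positivity
          have h2 : 0 < 1 + q * y := by have := hy.1; positivity
          exact (mul_pos h1 (mul_pos h2 hRp)).le
        have h0 := mul_nonpos_of_nonpos_of_nonneg hPn hM
        have hpow : 0 ≤ (1 - q ^ 2) ^ (n + 1 + 3) := pow_nonneg h1q.le _
        linarith
      · have hms := merge_step hq0 hq1 hx.1 hx.2 hy.1 hy.2 hb0 hL hLemB
        have hRR : 0 ≤ (o.map (fun z => 1 + q * z)).prod * (o.map (fun z => 1 - q * z)).prod :=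
          (mul_pos hRp hRm).le
        calc (1 + q * x) * ((1 + q * y) * (o.map (fun z => 1 + q * z)).prod) *
              ((1 - q) - (al q x + (al q y + (o.map (al q)).sum))) *
            ((1 - q * x) * ((1 - q * y) * (o.map (fun z => 1 - q * z)).prod) *
              ((1 + q) + (be q x + (be q y + (o.map (be q)).sum))))
            = (o.map (fun z => 1 + q * z)).prod * (o.map (fun z => 1 - q * z)).prod *
              (((1 + q * x) * (1 + q * y) *
                  ((1 - q) - (al q x + (al q y + (o.map (al q)).sum)))) *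
                ((1 - q * x) * (1 - q * y) *
                  ((1 + q) + (be q x + (be q y + (o.map (be q)).sum))))) := by ring
          _ ≤ (o.map (fun z => 1 + q * z)).prod * (o.map (fun z => 1 - q * z)).prod *
              ((1 - q ^ 2) * (((1 + q * (x * y)) *
                  ((1 - q) - al q (x * y) - (o.map (al q)).sum)) *
                ((1 - q * (x * y)) * ((1 + q) + be q (x * y) + (o.map (be q)).sum)))) :=
            mul_le_mul_of_nonneg_left hms hRR
          _ = (1 - q ^ 2) * ((1 + q * (x * y)) * (o.map (fun z => 1 + q * z)).prod *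
                ((1 - q) - (al q (x * y) + (o.map (al q)).sum)) *
              ((1 - q * (x * y)) * (o.map (fun z => 1 - q * z)).prod *
                ((1 + q) + (be q (x * y) + (o.map (be q)).sum)))) := by ring
          _ ≤ (1 - q ^ 2) * (1 - q ^ 2) ^ (n + 3) := mul_le_mul_of_nonneg_left hIH h1q.le
          _ = (1 - q ^ 2) ^ (n + 1 + 3) := by ring

/-- `(W_n)` for a family indexed by `Fin n`, with `q = √(∏ x_i)`. -/
theorem wn_fin (n : ℕ) (x : Fin n → ℝ) (hx : ∀ i, 0 < x i ∧ x i ≤ 1)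
    (hp : ∏ i, x i < 1) :
    (∏ i, (1 + √(∏ j, x j) * x i)) *
        ((1 - √(∏ j, x j)) - ∑ i, √(∏ j, x j) * (1 - x i) / (1 + √(∏ j, x j) * x i)) *
      ((∏ i, (1 - √(∏ j, x j) * x i)) *
        ((1 + √(∏ j, x j)) + ∑ i, √(∏ j, x j) * (1 - x i) / (1 - √(∏ j, x j) * x i))) ≤
      (1 - ∏ i, x i) ^ (n + 3) := by
  have hpos : 0 < ∏ i, x i := Finset.prod_pos (fun i _ => (hx i).1)
  have hq0 : 0 < √(∏ j, x j) := Real.sqrt_pos.mpr hpos
  have hq1 : √(∏ j, x j) < 1 := by
    rw [← Real.sqrt_one]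
    exact Real.sqrt_lt_sqrt hpos.le hp
  have hsq : √(∏ j, x j) ^ 2 = ∏ j, x j := Real.sq_sqrt hpos.le
  have h := wn_core n (Finset.univ.val.map x) (by simp)
    (by
      intro z hz
      obtain ⟨i, -, rfl⟩ := Multiset.mem_map.mp hz
      exact hx i)
    (√(∏ j, x j)) hq0 hq1 (by rw [hsq]; rfl)
  unfold PhiP PhiM at h
  simp only [Multiset.map_map] at h
  rw [hsq] at h
  exact h

end Vale.Agent.Helper14.WnCore
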